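import Vale.Agent.P144Z.Top
import Vale.Agent.P144Z.G.Stein

/-!
# Geometry of the initial step
-/

namespace Vale.Agent.P144Z.R5

open Finset

section Tor

variable {M : ℕ} [NeZero M]

/-- The size of the initial step: sets are neighbours when they meet. -/
noncomputable def Z1 (M : ℕ) [NeZero M] : Size (Tor M) where
  adj := Eq
  refl _ := rfl
  symm := Eq.symm
  sz X := 1 + stein X
  one_le X := le_add_of_nonneg_right (Nat.cast_nonneg _)
  union_le := by
    rintro X Y ⟨x, hx, y, hy, rfl⟩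
    have h := stein_union hx hy
    rw [tdist_self] at h
    have h' : (stein (X ∪ Y) : ℝ) ≤ stein X + stein Y := by exact_mod_cast h
    linarith

/-- The weighted sum over the sets that contain a point is at most `ε`. -/
def Pt (τ : ℝ) (f : Finset (Tor M) → ℝ) (ε : ℝ) : Prop :=
  ∀ y : Tor M, ∑ X ∈ univ.filter (fun X : Finset (Tor M) => y ∈ X),
    f X * Real.exp (τ * (1 + stein X)) ≤ ε

theorem sum_meet_le {f : Finset (Tor M) → ℝ} (hf : ∀ X, 0 ≤ f X) (Y : Finset (Tor M))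
    (p : Finset (Tor M) → Prop) [DecidablePred p] (hp : ∀ X, p X → ∃ y ∈ Y, y ∈ X) :
    ∑ X ∈ univ.filter p, f X ≤
      ∑ y ∈ Y, ∑ X ∈ univ.filter (fun X : Finset (Tor M) => y ∈ X), f X := by
  simp only [sum_filter]
  rw [sum_comm]
  refine sum_le_sum fun X _ => ?_
  have h0 : ∀ y ∈ Y, 0 ≤ if y ∈ X then f X else 0 := fun y _ => by
    split_ifs
    exacts [hf X, le_rfl]
  split_ifs with h
  · obtain ⟨y, hy, hyX⟩ := hp X h
    simpa [hyX] using single_le_sum h0 hy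
  · exact sum_nonneg h0

theorem Pt.le {τ ε : ℝ} {f : Finset (Tor M) → ℝ} (hf : ∀ X, 0 ≤ f X) (h : Pt τ f ε) :
    (Z1 M).Le τ f ε := by
  classical
  intro Y
  have h0 : ∀ X, 0 ≤ f X * Real.exp (τ * (1 + stein X)) := fun X =>
    mul_nonneg (hf X) (Real.exp_pos _).le
  have hε : 0 ≤ ε := le_trans (sum_nonneg fun X _ => h0 X) (h 0)
  refine (sum_meet_le h0 Y _ ?_).trans ((sum_le_card_nsmul _ _ _ fun y _ => h y).trans ?_)
  · rintro X ⟨x, hx, y, hy, rfl⟩
    exact ⟨x, hy, hx⟩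
  · have h1 : (Y.card : ℝ) ≤ stein Y + 1 := by exact_mod_cast card_le_stein Y
    rw [nsmul_eq_mul, mul_comm]
    exact mul_le_mul_of_nonneg_left (h1.trans (le_of_eq (add_comm _ _))) hε

theorem pt_of_le {τ ε : ℝ} {f : Finset (Tor M) → ℝ} (h : (Z1 M).Le τ f ε) : Pt τ f ε := by
  intro y
  have h1 := h {y}
  simp only [Z1, stein_singleton, Nat.cast_zero, add_zero, mul_one] at h1
  refine le_trans (le_of_eq (sum_congr ?_ fun _ _ => rfl)) h1
  ext X
  simp [Size.touch]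

theorem Pt.anch {τ ε : ℝ} (hτ : 0 ≤ τ) {f : Finset (Tor M) → ℝ} (hf : ∀ X, 0 ≤ f X)
    (h : Pt τ f ε) : Anch 8 τ f (289 * ε) := by
  intro z
  have h0 : ∀ X, 0 ≤ f X * Real.exp (τ * (1 + stein X)) := fun X =>
    mul_nonneg (hf X) (Real.exp_pos _).le
  have hε : 0 ≤ ε := le_trans (sum_nonneg fun X _ => h0 X) (h 0)
  refine (sum_le_sum fun X _ => mul_le_mul_of_nonneg_left (Real.exp_le_exp.2 ?_) (hf X)).trans
    ((sum_meet_le h0 (ball z 8) _ ?_).trans ((sum_le_card_nsmul _ _ _ fun y _ => h y).trans ?_))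
  · have h1 : (0 : ℝ) ≤ τ * stein X := by positivity
    push_cast
    linarith
  · rintro X ⟨x, hx, hz⟩
    exact ⟨x, G.mem_ball.2 hz, hx⟩
  · have h1 : ((ball z 8).card : ℝ) ≤ 289 := by exact_mod_cast card_ball_le z 8
    rw [nsmul_eq_mul]
    exact mul_le_mul_of_nonneg_right h1 hε

theorem Pt.mono {τ ε ε' : ℝ} {f f' : Finset (Tor M) → ℝ} (h : Pt τ f ε) (hf : ∀ X, f' X ≤ f X)
    (hε : ε ≤ ε') : Pt τ f' ε' := fun y =>
  (sum_le_sum fun X _ => mul_le_mul_of_nonneg_right (hf X) (Real.exp_pos _).le).trans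
    ((h y).trans hε)

theorem Pt.add {τ ε ε' : ℝ} {f f' : Finset (Tor M) → ℝ} (h : Pt τ f ε) (h' : Pt τ f' ε') :
    Pt τ (fun X => f X + f' X) (ε + ε') := fun y => by
  simp only [add_mul, sum_add_distrib]
  exact add_le_add (h y) (h' y)

theorem Pt.mul {τ ε c : ℝ} {f : Finset (Tor M) → ℝ} (h : Pt τ f ε) (hc : 0 ≤ c) :
    Pt τ (fun X => c * f X) (c * ε) := fun y => by
  simp only [mul_assoc, ← mul_sum]
  exact mul_le_mul_of_nonneg_left (h y) hc

theorem Pt.shift {τ κ κ' ε : ℝ} {f : Finset (Tor M) → ℝ} (hf : ∀ X, 0 ≤ f X)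
    (h : Pt (τ + κ') f ε) (hκ : κ ≤ κ') :
    Pt τ (fun X => Real.exp (κ * (1 + stein X)) * f X) ε := fun y => by
  refine le_trans (sum_le_sum fun X _ => ?_) (h y)
  beta_reduce
  rw [mul_comm _ (f X), mul_assoc, ← Real.exp_add]
  refine mul_le_mul_of_nonneg_left (Real.exp_le_exp.2 ?_) (hf X)
  have h1 : (0 : ℝ) ≤ 1 + stein X := by positivity
  nlinarith

/-- Sums of terms with given supports. -/
theorem pt_terms {τ c N : ℝ} (hτ : 0 ≤ τ) {I : Type} (t : Finset I) (s : I → Finset (Tor M))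
    (w : I → ℝ) (hw : ∀ i ∈ t, 0 ≤ w i) (hs : ∀ i ∈ t, (stein (s i) : ℝ) ≤ c)
    (hN : ∀ y, ∑ i ∈ t.filter (fun i => y ∈ s i), w i ≤ N) :
    Pt τ (fun X => ∑ i ∈ t.filter (fun i => s i = X), w i) (Real.exp (τ * (1 + c)) * N) := by
  intro y
  refine le_trans ?_ (mul_le_mul_of_nonneg_left (hN y) (Real.exp_pos _).le)
  rw [← sum_fiberwise_of_maps_to (s := t.filter fun i => y ∈ s i)
    (t := univ.filter fun X : Finset (Tor M) => y ∈ X) (g := s)
    (fun i hi => mem_filter.2 ⟨mem_univ _, (mem_filter.1 hi).2⟩), mul_sum]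
  refine sum_le_sum fun X hX => ?_
  have h1 : (t.filter fun i => y ∈ s i).filter (fun i => s i = X) = t.filter fun i => s i = X := by
    ext i
    simp only [mem_filter, and_assoc, and_congr_right_iff, and_iff_right_iff_imp]
    rintro - rfl
    exact (mem_filter.1 hX).2
  rw [h1, sum_mul, mul_sum]
  refine sum_le_sum fun i hi => ?_
  obtain ⟨hi', rfl⟩ := mem_filter.1 hi
  rw [mul_comm]
  exact mul_le_mul_of_nonneg_right (Real.exp_le_exp.2
    (mul_le_mul_of_nonneg_left (by linarith [hs i hi']) hτ)) (hw i hi')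

theorem stein_le_of_ball {X : Finset (Tor M)} {y : Tor M} {r : ℕ} (h : ∀ x ∈ X, tdist x y ≤ r) :
    stein X ≤ r * (2 * r + 1) ^ 2 := by
  have h1 : ∀ Y : Finset (Tor M), (∀ x ∈ Y, tdist x y ≤ r) → stein (insert y Y) ≤ r * Y.card := by
    intro Y
    induction Y using Finset.induction_on with
    | empty => intro _; simpa using (stein_singleton y).le
    | insert a Y ha ih =>
      intro hY
      have h2 := stein_union (mem_singleton_self a) (mem_insert_self y Y)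
      have h3 := ih fun x hx => hY x (mem_insert_of_mem hx)
      have h4 := hY a (mem_insert_self a Y)
      rw [stein_singleton, ← insert_eq, insert_comm] at h2
      rw [card_insert_of_notMem ha, mul_add]
      omega
  refine (stein_mono (subset_insert y X)).trans ((h1 X h).trans (Nat.mul_le_mul_left _ ?_))
  exact (card_le_card fun x hx => G.mem_ball.2 (h x hx)).trans (card_ball_le y r)

/-- The edges with both ends in `X`. -/
def edg (X : Finset (Tor M)) : Finset (Tor M × Fin 2) :=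
  univ.filter fun e => e.1 ∈ X ∧ e.1 + uv M e.2 ∈ X

theorem mem_edg {X : Finset (Tor M)} {e : Tor M × Fin 2} :
    e ∈ edg X ↔ e.1 ∈ X ∧ e.1 + uv M e.2 ∈ X := by simp [edg]

theorem edg_mono {X Y : Finset (Tor M)} (h : X ⊆ Y) : edg X ⊆ edg Y := fun _ he =>
  mem_edg.2 ⟨h (mem_edg.1 he).1, h (mem_edg.1 he).2⟩

theorem card_edg (X : Finset (Tor M)) : ((edg X).card : ℝ) ≤ 2 * (Z1 M).sz X := by
  have h1 : (edg X).card ≤ (X ×ˢ (univ : Finset (Fin 2))).card :=
    card_le_card fun e he => mem_product.2 ⟨(mem_edg.1 he).1, mem_univ _⟩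
  rw [card_product, card_univ, Fintype.card_fin] at h1
  have h2 := card_le_stein X
  have h3 : (edg X).card ≤ 2 * (1 + stein X) := by omega
  change _ ≤ 2 * (1 + (stein X : ℝ))
  exact_mod_cast h3

theorem disjoint_edg (X Y : Finset (Tor M)) (h : ¬ (Z1 M).touch X Y) : Disjoint (edg X) (edg Y) :=
  disjoint_left.2 fun e he he' => h ⟨e.1, (mem_edg.1 he).1, e.1, (mem_edg.1 he').1, rfl⟩

omit [NeZero M] in
theorem prj_uz (i : Fin 2) : prj M (uz i) = uv M i := by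
  fin_cases i <;> simp [uv, prj, uz]

end Tor

section Spin

theorem abs_sgn (b : Bool) : |sgn b| = 1 := by cases b <;> simp [sgn]

theorem abs_pHV (n : (ℤ × ℤ) × Fin 2 → Bool) (a b : ℤ × ℤ) : |pHV n a b| = 1 := by
  simp [pHV, bond, abs_mul, abs_prod, abs_sgn]

theorem abs_spinFn (B : Finset (ℤ × ℤ)) (n : (ℤ × ℤ) × Fin 2 → Bool) : |spinFn B n| ≤ 1 := by
  have h1 : |∑ a ∈ B, ((∏ b ∈ B, pHV n a b) + ∏ b ∈ B, pHV n b a)| ≤ 2 * B.card := by
    refine (abs_sum_le_sum_abs _ _).trans ((sum_le_card_nsmul _ _ 2 fun a _ => ?_).trans ?_)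
    · refine (abs_add_le _ _).trans (le_of_eq ?_)
      simp only [abs_prod, abs_pHV, prod_const_one]
      norm_num
    · rw [nsmul_eq_mul, mul_comm]
  rw [spinFn, abs_mul, abs_of_nonneg (by positivity)]
  refine (mul_le_mul_of_nonneg_left h1 (by positivity)).trans ?_
  exact inv_mul_le_one_of_le₀ le_rfl (by positivity)

theorem mem_hull {B : Finset (ℤ × ℤ)} {a b v : ℤ × ℤ} (ha : a ∈ B) (hb : b ∈ B)
    (h1 : min a.1 b.1 ≤ v.1) (h2 : v.1 ≤ max a.1 b.1 + 1) (h3 : min a.2 b.2 ≤ v.2)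
    (h4 : v.2 ≤ max a.2 b.2 + 1) : v ∈ hull B :=
  mem_biUnion.2 ⟨(a, b), mem_product.2 ⟨ha, hb⟩,
    mem_product.2 ⟨mem_Icc.2 ⟨h1, h2⟩, mem_Icc.2 ⟨h3, h4⟩⟩⟩

theorem pHV_congr {B : Finset (ℤ × ℤ)} {n n' : (ℤ × ℤ) × Fin 2 → Bool}
    (h : ∀ e : (ℤ × ℤ) × Fin 2, e.1 ∈ hull B → e.1 + uz e.2 ∈ hull B → n e = n' e)
    {a b : ℤ × ℤ} (ha : a ∈ B) (hb : b ∈ B) : pHV n a b = pHV n' a b := by
  unfold pHV bond
  congr 1
  · refine prod_congr rfl fun i hi => congrArg sgn (h _ ?_ ?_)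
    all_goals
      rw [mem_Ico] at hi
      refine mem_hull ha hb ?_ ?_ ?_ ?_ <;> simp [uz] <;> omega
  · refine prod_congr rfl fun i hi => congrArg sgn (h _ ?_ ?_)
    all_goals
      rw [mem_Ico] at hi
      refine mem_hull ha hb ?_ ?_ ?_ ?_ <;> simp [uz] <;> omega

theorem spinFn_congr {B : Finset (ℤ × ℤ)} {n n' : (ℤ × ℤ) × Fin 2 → Bool}
    (h : ∀ e : (ℤ × ℤ) × Fin 2, e.1 ∈ hull B → e.1 + uz e.2 ∈ hull B → n e = n' e) :
    spinFn B n = spinFn B n' := by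
  unfold spinFn
  congr 1
  refine sum_congr rfl fun a ha => ?_
  rw [prod_congr rfl fun b hb => pHV_congr h ha hb, prod_congr rfl fun b hb => pHV_congr h hb ha]

theorem hull_bd {R : ℕ} {B : Finset (ℤ × ℤ)} (hB : B ∈ potSets R) {v : ℤ × ℤ} (hv : v ∈ hull B) :
    max v.1.natAbs v.2.natAbs ≤ R + 1 := by
  obtain ⟨p, hp, hv⟩ := mem_biUnion.1 hv
  have hs := mem_powerset.1 (mem_filter.1 hB).1
  have h1 := hs (mem_product.1 hp).1
  have h2 := hs (mem_product.1 hp).2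
  simp only [mem_product, mem_Icc] at h1 h2 hv
  omega

theorem zero_mem_hull {R : ℕ} {B : Finset (ℤ × ℤ)} (hB : B ∈ potSets R) : (0, 0) ∈ hull B :=
  mem_hull (mem_filter.1 hB).2 (mem_filter.1 hB).2 (by simp) (by simp) (by simp) (by simp)

end Spin

section Put

variable {g : Geo}

theorem self_mem_put (y : g.P) {Y : Finset (ℤ × ℤ)} (h : (0, 0) ∈ Y) : y ∈ g.put y Y :=
  mem_image.2 ⟨_, h, by simp [prj]⟩

theorem tdist_put {y x : g.P} {Y : Finset (ℤ × ℤ)} {r : ℕ}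
    (hY : ∀ v ∈ Y, max v.1.natAbs v.2.natAbs ≤ r) (hx : x ∈ g.put y Y) : tdist x y ≤ r := by
  obtain ⟨v, hv, rfl⟩ := mem_image.1 hx
  exact (G.tdist_add_prj_le y v).trans (hY v hv)

theorem see_congr {y : g.P} {Y : Finset (ℤ × ℤ)} {n n' : g.Cfg}
    (h : ∀ e ∈ edg (g.put y Y), n e = n' e) (e : (ℤ × ℤ) × Fin 2) (h1 : e.1 ∈ Y)
    (h2 : e.1 + uz e.2 ∈ Y) : g.see y n e = g.see y n' e := by
  refine h _ (mem_edg.2 ⟨mem_image_of_mem _ h1, ?_⟩)
  refine mem_image.2 ⟨_, h2, ?_⟩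
  rw [G.prj_add, prj_uz, add_assoc]

theorem mem_put_on {k : g.K} (hk : (g.src k).Ok) (hon : (g.src k).on = true) :
    (g.src k).y ∈ g.put (g.src k).y (g.src k).Y ∧
      (g.src k).y + uv g.M (g.src k).dir ∈ g.put (g.src k).y (g.src k).Y ∧
      ∀ x ∈ g.put (g.src k).y (g.src k).Y, tdist x (g.src k).y ≤ 1 := by
  refine ⟨self_mem_put _ hk.zero, ?_, fun x hx => tdist_put (fun v hv => ?_) hx⟩
  · rw [(hk.en hon).1]
    exact mem_image.2 ⟨uz (g.src k).dir, by simp, by rw [prj_uz]⟩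
  · rw [(hk.en hon).1, mem_insert, mem_singleton] at hv
    rcases hv with rfl | rfl
    · simp
    · unfold uz
      split_ifs <;> simp

/-- The size of the interaction terms with support `X`. -/
noncomputable def vv (g : Geo) (R : ℕ) (V : Finset (ℤ × ℤ) → ℝ) (X : Finset g.P) : ℝ :=
  ∑ y : g.P, ∑ B ∈ (potSets R).filter (fun B => g.put y (hull B) = X), |V B|

theorem vv_nonneg (R : ℕ) (V : Finset (ℤ × ℤ) → ℝ) (X : Finset g.P) : 0 ≤ vv g R V X :=
  sum_nonneg fun _ _ => sum_nonneg fun _ _ => abs_nonneg _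

/-- The constant of the interaction. -/
noncomputable def cR (τ : ℝ) (R : ℕ) : ℝ :=
  Real.exp (τ * (1 + ((R + 1) * (2 * (R + 1) + 1) ^ 2 : ℕ))) * ((2 * (R + 1) + 1) ^ 2 : ℕ)

theorem one_le_cR {τ : ℝ} (hτ : 0 ≤ τ) (R : ℕ) : 1 ≤ cR τ R :=
  one_le_mul_of_one_le_of_one_le (Real.one_le_exp (by positivity))
    (by exact_mod_cast Nat.one_le_pow _ _ (by omega))

theorem pt_vv {τ : ℝ} (hτ : 0 ≤ τ) (R : ℕ) (V : Finset (ℤ × ℤ) → ℝ) :
    Pt τ (vv g R V) (cR τ R * ∑ B ∈ potSets R, |V B|) := by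
  have h := pt_terms (c := ((R + 1) * (2 * (R + 1) + 1) ^ 2 : ℕ))
    (N := ((2 * (R + 1) + 1) ^ 2 : ℕ) * ∑ B ∈ potSets R, |V B|) hτ
    ((univ : Finset g.P) ×ˢ potSets R) (fun i => g.put i.1 (hull i.2)) (fun i => |V i.2|)
    (fun _ _ => abs_nonneg _) (fun i hi => by
      exact_mod_cast stein_le_of_ball fun x hx =>
        tdist_put (fun v hv => hull_bd (mem_product.1 hi).2 hv) hx) (fun z => by
      refine (sum_le_sum_of_subset_of_nonneg (t := ball z (R + 1) ×ˢ potSets R)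
        (fun i hi => ?_) fun _ _ _ => abs_nonneg _).trans ?_
      · obtain ⟨hi, hz⟩ := mem_filter.1 hi
        refine mem_product.2 ⟨G.mem_ball.2 ?_, (mem_product.1 hi).2⟩
        rw [tdist_comm]
        exact tdist_put (fun v hv => hull_bd (mem_product.1 hi).2 hv) hz
      · rw [sum_product]
        dsimp only
        rw [sum_const, nsmul_eq_mul]
        exact mul_le_mul_of_nonneg_right (by exact_mod_cast card_ball_le z (R + 1))
          (sum_nonneg fun _ _ => abs_nonneg _))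
  refine h.mono (fun X => le_of_eq ?_) (le_of_eq (mul_assoc _ _ _).symm)
  simp only [vv, sum_filter, sum_product]

end Put

end Vale.Agent.P144Z.R5
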