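import Vale.Agent.P144Z.R5.Sys

/-!
# The initial step of the flow
-/

namespace Vale.Agent.P144Z

open Finset Matrix

namespace R5

theorem abs_w {q : Par} (hq : q.Ok) : |q.x * q.Z| ≤ 1 := by
  have h1 := hq.x_lo
  have h2 := hq.x_hi
  have h3 := hq.Z_lo
  have h4 := hq.Z_hi
  rw [abs_of_nonneg (by positivity)]
  nlinarith

theorem w_ge {q : Par} (hq : q.Ok) : 1 / 8 ≤ q.x * q.Z := by
  have h1 := hq.x_lo
  have h3 := hq.Z_lo
  nlinarith

theorem small_nonneg {q : Par} {δ : ℝ} (h : q.Small δ) : 0 ≤ δ :=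
  le_trans (mul_nonneg (abs_nonneg _) (sum_nonneg fun _ _ => abs_nonneg _)) h

section Anch

variable {M : ℕ} [NeZero M] {ℓ : ℕ} {τ ε ε' : ℝ} {f f' : Finset (Tor M) → ℝ}

theorem anch_mono (h : Anch ℓ τ f ε) (hf : ∀ X, f' X ≤ f X) (hε : ε ≤ ε') : Anch ℓ τ f' ε' :=
  fun z => (sum_le_sum fun X _ => mul_le_mul_of_nonneg_right (hf X) (Real.exp_pos _).le).trans
    ((h z).trans hε)

theorem anch_add (h : Anch ℓ τ f ε) (h' : Anch ℓ τ f' ε') :
    Anch ℓ τ (fun X => f X + f' X) (ε + ε') := fun z => by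
  simp only [add_mul, sum_add_distrib]
  exact add_le_add (h z) (h' z)

theorem anch_mul {c : ℝ} (h : Anch ℓ τ f ε) (hc : 0 ≤ c) :
    Anch ℓ τ (fun X => c * f X) (c * ε) := fun z => by
  simp only [mul_assoc, ← mul_sum]
  exact mul_le_mul_of_nonneg_left (h z) hc

end Anch

variable {g : Geo} {h β τ : ℝ} {𝓛 : LocSys g.P g.E}

theorem pt_small (hτ : 0 ≤ τ) {q : Par} {δ : ℝ} (hq : q.Small δ) :
    Pt τ (fun X => (fS 𝓛).p X (Hu g q.R q.V q.μ X)) (cR τ q.R * δ) :=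
  (pt_Hu hτ q.R q.V q.μ).mono (fun _ => le_rfl)
    (mul_le_mul_of_nonneg_left hq (zero_le_one.trans (one_le_cR hτ _)))

theorem pt_Hin {q : Par} {a b : ℝ} (ha : Pt τ (fun X => (fS 𝓛).p X (Hu g q.R q.V q.μ X)) a)
    (hb : Pt τ (fun X => (fS 𝓛).p X (Hs g X)) b) :
    Pt τ (fun X => (fS 𝓛).p X (g.Hin q X)) (a + b) :=
  (ha.add hb).mono (fun X => by rw [Hin_eq]; exact (fS 𝓛).p_add X _ _) le_rfl

/-- The rescaling of the fields. -/
noncomputable def scl (g : Geo) (t : ℝ) : g.E →ₗ[ℝ] g.E :=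
  evMap (t • res (Set.range Sum.inl) + res (Set.range Sum.inr))

theorem scl_edge (t : ℝ) (x : g.P) (i : Fin 2) : scl g t (g.edge x i) = (t * t) • g.edge x i := by
  have h1 : ∀ s : Tor g.M × Fin 4, (t • res (Set.range Sum.inl) + res (Set.range Sum.inr) :
      (g.S → ℝ) →ₗ[ℝ] (g.S → ℝ)) (Pi.single (Sum.inl s) 1) = t • Pi.single (Sum.inl s) 1 := by
    intro s
    funext u
    rcases u with u | u <;> simp [res]
  rw [Geo.edge, map_smul, scl, I2.evMap_pp, h1, h1, I2.pp_smul_smul, smul_comm]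

theorem E0_scl (t w : ℝ) (F : g.Cfg → g.E) :
    g.E0 (t * t * w) ((scl g t).compLeft g.Cfg F) = scl g t (g.E0 w F) := by
  rw [E0_eq, E0_eq, Ex, Ex, map_sum]
  refine sum_congr rfl fun n _ => ?_
  have h1 : ∀ e : Tor g.M × Fin 2, scl g t (w • g.edge e.1 e.2) = (t * t * w) • g.edge e.1 e.2 :=
    fun e => by rw [map_smul, scl_edge, smul_smul, mul_comm]
  have h2 : scl g t 1 = 1 := I2.evMap_one _
  rw [scl, I2.evMap_mul, I2.evMap_prod]
  refine congrArg₂ _ rfl (prod_congr rfl fun e _ => ?_)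
  change _ = scl g t _
  split_ifs
  · exact (h1 e).symm
  · rw [map_sub, h1, h2]

theorem Cl_scl (t w : ℝ) (R : ℕ) (V : Finset (ℤ × ℤ) → ℝ) (μ : ℝ) (U : Finset g.P) :
    Cl (g.E0 (t * t * w)) (Hu g R V μ) U = scl g t (Cl (g.E0 w) (Hu g R V μ) U) := by
  have h2 : scl g t 1 = 1 := I2.evMap_one _
  have h := Cl_hom (g.E0 w) (g.E0 (t * t * w)) ((scl g t).compLeft g.Cfg) (funext fun _ => h2)
    (fun F G => funext fun n => I2.evMap_mul _ _ _) (scl g t) h2 (I2.evMap_mul _) id U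
    (Set.injOn_id _) ⊤ (fun F _ => E0_scl t w F) (Hu g R V μ) (Hu g R V μ)
    (fun _ _ => Algebra.mem_top) (fun X _ => funext fun n => by
      rw [image_id]
      change _ = scl g t (Hu g R V μ X n)
      rw [Hu, map_smul, h2])
  rwa [image_id] at h

theorem ok_geo0 (M : ℕ) [NeZero M] : (geo0 M).Ok := ⟨fun _ => Or.inl rfl, fun k => k.elim⟩

theorem W0_geo0 (M : ℕ) [NeZero M] (q : Par) :
    (geo0 M).W0 q = Cl ((geo0 M).E0 (q.x * q.Z)) (Hu (geo0 M) q.R q.V q.μ) := by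
  rw [Geo.W0]
  congr 1
  funext X
  rw [Hin_eq, Hs, sum_eq_zero fun k _ => k.elim, add_zero]

theorem exists_scale {w w' : ℝ} (hw' : 1 / 8 ≤ w') (hww : w' ≤ w) :
    ∃ t : ℝ, |t - 1| ≤ 1 ∧ t * t * w = w' ∧ 2 * |t - 1| ≤ 16 * |w - w'| := by
  obtain ⟨t, ht0, ht1, ht⟩ : ∃ t : ℝ, 0 ≤ t ∧ t ≤ 1 ∧ t * t * w = w' := by
    refine ⟨√(w' / w), Real.sqrt_nonneg _, Real.sqrt_le_one.2 ((div_le_one (by linarith)).2 hww),
      ?_⟩
    rw [Real.mul_self_sqrt (div_nonneg (by linarith) (by linarith)),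
      div_mul_cancel₀ _ (by linarith : 0 < w).ne']
  refine ⟨t, ?_, ht, ?_⟩
  · rw [abs_sub_comm, abs_of_nonneg (by linarith)]
    linarith
  · rw [abs_sub_comm, abs_of_nonneg (by linarith), abs_of_nonneg (by linarith), ← ht]
    nlinarith [mul_nonneg ht0 (sub_nonneg.2 ht1), mul_le_mul_of_nonneg_left ht1 ht0]

theorem lip_aux (τ h : ℝ) (hτ : 0 ≤ τ) (hh : 0 < h) {R : ℕ} {V : Finset (ℤ × ℤ) → ℝ}
    {μ μ' w w' δ c : ℝ} (hw : |w| ≤ 1) (hw' : 1 / 8 ≤ w') (hww : w' ≤ w)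
    (hμ : |μ| * ∑ B ∈ potSets R, |V B| ≤ δ) (hμ' : |μ'| * ∑ B ∈ potSets R, |V B| ≤ δ)
    (hc : cR (τ + kp0 h + 2) R ≤ c) (hc' : cR (τ + kp0 (2 * h) + 2) R ≤ c) (hδ : c * δ ≤ 1 / 48)
    (M : ℕ) [NeZero M] :
    Pt τ (fun U => (geo0 M).pn 8 h 1 U (Cl ((geo0 M).E0 w) (Hu (geo0 M) R V μ) U -
      Cl ((geo0 M).E0 w') (Hu (geo0 M) R V μ') U))
      (64 * c * (|μ - μ'| * ∑ B ∈ potSets R, |V B| + δ * |w - w'|)) := by
  have hg := ok_geo0 M
  obtain ⟨𝓛, h1, h2⟩ := Geo.exists_locSys hg.sign (by norm_num : 1 ≤ 8) hh one_pos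
  obtain ⟨𝓜, h3, h4⟩ := Geo.exists_locSys hg.sign (by norm_num : 1 ≤ 8)
    (by positivity : 0 < 2 * h) one_pos
  have hk := kp0_nonneg h
  have hk' := kp0_nonneg (2 * h)
  have hS : 0 ≤ ∑ B ∈ potSets R, |V B| := sum_nonneg fun _ _ => abs_nonneg _
  have hδ0 : 0 ≤ δ := le_trans (by positivity) hμ
  have hc0 : 0 ≤ c := zero_le_one.trans ((one_le_cR (by positivity) R).trans hc)
  have hw1 : w ≤ 1 := (le_abs_self w).trans hw
  have hb : ∀ (𝓝 : LocSys (geo0 M).P (geo0 M).E) (σ m a : ℝ), 0 ≤ σ → cR σ R ≤ c →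
      |m| * ∑ B ∈ potSets R, |V B| ≤ a →
      Pt σ (fun X => (fS 𝓝).p X (Hu (geo0 M) R V m X)) (c * a) := fun 𝓝 σ m a hσ h5 h6 =>
    (pt_Hu hσ R V m).mono (fun _ => le_rfl) (mul_le_mul h5 h6 (by positivity) hc0)
  have a1 := pt_cl_diff exp_ev_injective hk hτ
    (isExp_E0 hg h1 h2 hh one_pos (w := w') (by rw [abs_of_nonneg (by linarith)]; linarith))
    (Hu_empty R V μ) (Hu_empty R V μ') (Hu_mem R V μ) (Hu_mem R V μ')
    ((hb 𝓛 _ μ δ (by positivity) hc hμ).mono (fun _ => le_rfl) hδ)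
    ((hb 𝓛 _ μ' δ (by positivity) hc hμ').mono (fun _ => le_rfl) hδ)
    ((hb 𝓛 _ (μ - μ') _ (by positivity) hc le_rfl).mono (fun X => by rw [Hu_sub]) le_rfl)
    (by positivity)
  obtain ⟨a2, a3, -⟩ := pt_cl exp_ev_injective hk' hτ
    (isExp_E0 hg h3 h4 (by positivity) one_pos hw) (Hu_empty R V μ) (Hu_mem R V μ)
    (by linarith : c * δ ≤ 1 / 16) (hb 𝓜 _ μ δ (by positivity) hc' hμ)
  obtain ⟨t, ht1, ht, ht2⟩ := exists_scale hw' hww
  refine (a1.add (a3.mul (by positivity : 0 ≤ 16 * |w - w'|))).mono (fun U => ?_) ?_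
  · have e1 : Cl ((geo0 M).E0 w) (Hu (geo0 M) R V μ) U -
        Cl ((geo0 M).E0 w') (Hu (geo0 M) R V μ') U =
        (Cl ((geo0 M).E0 w') (Hu (geo0 M) R V μ) U - Cl ((geo0 M).E0 w') (Hu (geo0 M) R V μ') U) -
        (scl (geo0 M) t (Cl ((geo0 M).E0 w) (Hu (geo0 M) R V μ) U) -
          Cl ((geo0 M).E0 w) (Hu (geo0 M) R V μ) U) := by
      rw [← Cl_scl, ht]; ring
    have e2 := Geo.pn_scale hg.sign (by norm_num : 1 ≤ 8) hh one_pos (h3 ▸ a2 U) ht1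
    rw [e1, ← h2]
    refine (B4.p_sub 𝓛 U _ _).trans (add_le_add le_rfl ?_)
    rw [h2]
    refine e2.trans ?_
    rw [← h4]
    exact mul_le_mul_of_nonneg_right ht2 (𝓜.p_nonneg _ _)
  · have e3 : 0 ≤ c * (|μ - μ'| * ∑ B ∈ potSets R, |V B|) := by positivity
    linarith

end R5

namespace Geo

open R5

/-- The initial step with isolated energy sources. -/
theorem init_early (τ h : ℝ) (hτ : 0 ≤ τ) (hh : 0 < h) : ∃ β₀ > 0, ∀ R : ℕ, ∃ C : ℝ, 1 ≤ C ∧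
    ∀ q : Par, q.R = R → q.Ok → ∀ δ, q.Small δ → C * δ ≤ 1 → ∀ g : Geo, g.Ok →
    (∀ k, (g.src k).on = true) → (∀ k k', k ≠ k' → 8 < tdist (g.src k).y (g.src k').y) →
    ∀ β, 0 < β → β ≤ β₀ →
      NormedSpace.exp (∑ U, g.W0 q U) = g.E0 (q.x * q.Z) (NormedSpace.exp (∑ X, g.Hin q X)) ∧
      Anch 8 τ (fun U => g.pn 8 h β U (g.W0 q U - g.Wsrc q U)) (C * δ) := by
  have hk := kp0_nonneg h
  have hσ : 0 ≤ τ + kp0 h + 2 := by positivity
  refine ⟨(1 / 96) / Real.exp ((τ + kp0 h + 2) * (1 + (1 * (2 * 1 + 1) ^ 2 : ℕ))), by positivity,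
    fun R => ⟨10000 * cR (τ + kp0 h + 2) R, by linarith [one_le_cR hσ R], ?_⟩⟩
  rintro q rfl hq δ hδ hC g hg hon hsep β hβ hβ0
  obtain ⟨𝓛, h1, h2⟩ := exists_locSys hg.sign (by norm_num : 1 ≤ 8) hh hβ
  have hE := isExp_E0 hg h1 h2 hh hβ (abs_w hq)
  have hr := fun k => (mem_put_on (hg.src k) (hon k)).2.2
  have hu : ∀ k k' x, x ∈ g.put (g.src k).y (g.src k).Y → x ∈ g.put (g.src k').y (g.src k').Y →
      k = k' := by
    intro k k' x hx hx'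
    by_contra hne
    have a1 := hsep k k' hne
    have a2 := hr k x hx
    have a3 := hr k' x hx'
    have a4 := tdist_triangle (g.src k).y x (g.src k').y
    rw [tdist_comm] at a2
    omega
  have b1 := pt_small (𝓛 := 𝓛) hσ hδ
  have b2 := (pt_Hs hg h2 hh hβ hσ hr hu).mono (fun _ => le_rfl)
    ((mul_comm _ _).trans_le ((le_div_iff₀ (Real.exp_pos _)).1 hβ0))
  have b3 := (pt_Hin b1 b2).mono (fun _ => le_rfl) (by linarith : _ ≤ (1 / 48 : ℝ))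
  have b4 : 0 ≤ cR (τ + kp0 h + 2) q.R * δ :=
    mul_nonneg (zero_le_one.trans (one_le_cR hσ _)) (small_nonneg hδ)
  refine ⟨(pt_cl exp_ev_injective hk hτ hE (Hin_empty hg q) (Hin_mem hg h1 q)
    (by norm_num) b3).2.2, ?_⟩
  have b5 := pt_cl_diff exp_ev_injective hk hτ hE (Hin_empty hg q) (Hs_empty hg) (Hin_mem hg h1 q)
    (Hs_mem hg h1) b3 (b2.mono (fun _ => le_rfl) (by norm_num))
    (b1.mono (fun X => by rw [Hin_eq, add_sub_cancel_right]) le_rfl) b4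
  refine anch_mono (b5.anch hτ fun _ => 𝓛.p_nonneg _ _) (fun U => ?_) (by linarith)
  rw [Cl_Hs hg h1 h2 hh hβ q (abs_w hq) hon hu, h2, W0]

/-- The initial step with at most one arbitrary source. -/
theorem init_gen (τ h : ℝ) (hτ : 0 ≤ τ) (hh : 0 < h) (R : ℕ) : ∃ C : ℝ, 1 ≤ C ∧
    ∀ (Y : Finset (ℤ × ℤ)) (ε : ℝ), 0 < ε → ∃ β₀ > 0,
    ∀ q : Par, q.R = R → q.Ok → ∀ δ, q.Small δ → C * δ ≤ 1 → ∀ g : Geo, g.Ok → Subsingleton g.K →
    (∀ k, (g.src k).Y = Y) → ∀ β, 0 < β → β ≤ β₀ →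
      NormedSpace.exp (∑ U, g.W0 q U) = g.E0 (q.x * q.Z) (NormedSpace.exp (∑ X, g.Hin q X)) ∧
      Anch 8 τ (fun U => g.pn 8 h β U (g.W0 q U)) (C * δ + ε) := by
  have hk := kp0_nonneg h
  have hσ : 0 ≤ τ + kp0 h + 2 := by positivity
  refine ⟨10000 * cR (τ + kp0 h + 2) R, by linarith [one_le_cR hσ R], fun Y ε hε => ?_⟩
  obtain ⟨r, hr⟩ : ∃ r : ℕ, ∀ v ∈ Y, max v.1.natAbs v.2.natAbs ≤ r :=
    ⟨_, fun v hv => le_sup (f := fun v : ℤ × ℤ => max v.1.natAbs v.2.natAbs) hv⟩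
  refine ⟨min (1 / 32) (ε / 1156) /
    Real.exp ((τ + kp0 h + 2) * (1 + (r * (2 * r + 1) ^ 2 : ℕ))), by positivity, ?_⟩
  rintro q rfl hq δ hδ hC g hg hK hY β hβ hβ0
  obtain ⟨𝓛, h1, h2⟩ := exists_locSys hg.sign (by norm_num : 1 ≤ 8) hh hβ
  have b1 := pt_small (𝓛 := 𝓛) hσ hδ
  have b2 := (pt_Hs hg h2 hh hβ hσ (fun k x hx => tdist_put (hY k ▸ hr) hx)
    fun k k' _ _ _ => Subsingleton.elim k k').mono (fun _ => le_rfl)
    ((mul_comm _ _).trans_le ((le_div_iff₀ (Real.exp_pos _)).1 hβ0))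
  have b4 : 0 ≤ cR (τ + kp0 h + 2) q.R * δ :=
    mul_nonneg (zero_le_one.trans (one_le_cR hσ _)) (small_nonneg hδ)
  have b6 := min_le_left (1 / 32 : ℝ) (ε / 1156)
  have b7 := min_le_right (1 / 32 : ℝ) (ε / 1156)
  obtain ⟨-, b8, b9⟩ := pt_cl exp_ev_injective hk hτ (isExp_E0 hg h1 h2 hh hβ (abs_w hq))
    (Hin_empty hg q) (Hin_mem hg h1 q) (by linarith) (pt_Hin b1 b2)
  refine ⟨b9, anch_mono (b8.anch hτ fun _ => 𝓛.p_nonneg _ _) (fun U => ?_) (by linarith)⟩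
  rw [h2, W0]

/-- The initial step depends on the parameters in a Lipschitz way. -/
theorem init_lip (τ h : ℝ) (hτ : 0 ≤ τ) (hh : 0 < h) (R : ℕ) : ∃ C : ℝ, 1 ≤ C ∧
    ∀ q q' : Par, q.R = R → q'.R = R → q'.V = q.V → q.Ok → q'.Ok → ∀ δ, q.Small δ → q'.Small δ →
    C * δ ≤ 1 → ∀ (M : ℕ) [NeZero M],
      Anch 8 τ (fun U => (geo0 M).pn 8 h 1 U ((geo0 M).W0 q U - (geo0 M).W0 q' U))
        (C * (|q.μ - q'.μ| * ∑ B ∈ potSets R, |q.V B| + δ * |q.x * q.Z - q'.x * q'.Z|)) := by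
  have hk := kp0_nonneg h
  have hk' := kp0_nonneg (2 * h)
  obtain ⟨c, hc, hc'⟩ : ∃ c, cR (τ + kp0 h + 2) R ≤ c ∧ cR (τ + kp0 (2 * h) + 2) R ≤ c :=
    ⟨_, le_max_left _ _, le_max_right _ _⟩
  have h1 : 1 ≤ c := (one_le_cR (by positivity) R).trans hc
  refine ⟨289 * (64 * c), by linarith, ?_⟩
  intro q q' hR hR' hV hq hq' δ hδ hδ' hC M _
  have h2 : c * δ ≤ 1 / 48 := by nlinarith [small_nonneg hδ]
  rw [Par.Small, hR] at hδ
  rw [Par.Small, hR', hV] at hδ'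
  rw [W0_geo0, W0_geo0, hR, hR', hV, mul_assoc]
  obtain ⟨𝓛, -, h3⟩ := exists_locSys (ok_geo0 M).sign (by norm_num : 1 ≤ 8) hh one_pos
  refine Pt.anch hτ (fun X => h3 ▸ 𝓛.p_nonneg _ _) ?_
  rcases le_total (q'.x * q'.Z) (q.x * q.Z) with hw | hw
  · exact lip_aux τ h hτ hh (abs_w hq) (w_ge hq') hw hδ hδ' hc hc' h2 M
  · refine (lip_aux τ h hτ hh (abs_w hq') (w_ge hq) hw hδ' hδ hc hc' h2 M).mono
      (fun X => ?_) (by rw [abs_sub_comm q.μ, abs_sub_comm (q.x * q.Z)])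
    rw [← h3, ← B4.p_neg, neg_sub]

/-- The defect size of the initial state. -/
theorem init_df (τ h : ℝ) (hτ : 0 ≤ τ) (hh : 0 < h) : ∃ C : ℝ, 1 ≤ C ∧ ∀ g : Geo, g.Ok →
    ∀ (q : Par) (η : ℝ), q.Ok → |q.x - tc| ≤ η → |q.Z - 1| ≤ η → ∀ β ε : ℝ, 0 < β →
      ((∀ k, (g.src k).on = true) → Anch 8 τ (fun U => g.pn 8 h β U (g.W0 q U - g.Wsrc q U)) ε →
        Anch 8 τ (g.df 8 h β (g.init q) (g.srcSt (g.z0 q))) (4 * ε + C * η)) ∧
      ((∀ k, (g.src k).on = false) → Anch 8 τ (fun U => g.pn 8 h β U (g.W0 q U)) ε →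
        Anch 8 τ (g.df 8 h β (g.init q) (g.srcSt 0)) (4 * ε + C * η)) := by
  obtain ⟨C, hC1, hC⟩ := pn_crude
  refine ⟨1 + 289 * (2 * (Real.exp (τ * (1 + 4)) * (9 * (3 * (C * h ^ 2 * 8))))),
    le_add_of_nonneg_right (by positivity), fun g hg q η hq hx hZ β ε hβ => ?_⟩
  have h8 : 1 ≤ 8 := by norm_num
  obtain ⟨𝓛, h1, h2⟩ := exists_locSys hg.sign h8 hh hβ
  have hη : 0 ≤ η := (abs_nonneg _).trans hx
  have hv : ∀ x, (g.init q).v x ∈ g.sub (star x) ∧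
      𝓛.p (star x) ((g.init q).v x) ≤ 3 * (C * h ^ 2 * 8) * η := by
    intro x
    obtain ⟨a1, a2, -⟩ := hC g hg.sign 8 h β h8 hh hβ x
    refine ⟨add_mem (Subalgebra.smul_mem _ (O1_mem x) _) (Subalgebra.smul_mem _ (O2_mem x) _),
      (𝓛.p_add _ _ _).trans ?_⟩
    have a3 : |q.Z * (q.x - tc)| ≤ 2 * η := by
      rw [abs_mul]
      exact mul_le_mul (by rw [abs_of_nonneg (by linarith [hq.Z_lo])]; exact hq.Z_hi) hx
        (abs_nonneg _) zero_le_two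
    rw [𝓛.p_smul, 𝓛.p_smul]
    have a4 := mul_le_mul a3 (h2 ▸ a1 : 𝓛.p (star x) (g.O1 x) ≤ _) (𝓛.p_nonneg _ _) (by positivity)
    have a5 := mul_le_mul hZ (h2 ▸ a2 : 𝓛.p (star x) (g.O2 x) ≤ _) (𝓛.p_nonneg _ _) hη
    push_cast at a4 a5
    linarith
  have hcar : Anch 8 τ (fun X => g.pn 8 h β X
      (g.dp 8 X (∑ x ∈ univ.filter (fun x => star x = X), (g.init q).v x)))
      (289 * (2 * (Real.exp (τ * (1 + 4)) * (9 * (3 * (C * h ^ 2 * 8) * η))))) := by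
    refine Pt.anch hτ (fun X => h2 ▸ 𝓛.p_nonneg _ _) (((pt_terms (c := 4) hτ univ star
      (fun _ => 3 * (C * h ^ 2 * 8) * η) (fun _ _ => by positivity)
      (fun x _ => by exact_mod_cast stein_star x) fun y => ?_).mul zero_le_two).mono
      (fun X => ?_) le_rfl)
    · rw [sum_const, nsmul_eq_mul]
      refine mul_le_mul_of_nonneg_right ?_ (by positivity)
      exact_mod_cast (card_le_card fun x hx => G.mem_ball.2
        (G.tdist_star (mem_filter.1 hx).2)).trans (card_ball_le y 1)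
    · refine (pn_dp_le hg.sign h8 hh hβ
        (sum_mem fun x hx => (mem_filter.1 hx).2 ▸ (hv x).1) 8 X).trans
        (mul_le_mul_of_nonneg_left ?_ zero_le_two)
      rw [← h2]
      exact (B3.p_sum_le _ _ _ _).trans (sum_le_sum fun x hx => (mem_filter.1 hx).2 ▸ (hv x).2)
  have key : ∀ (D : Finset g.P → g.E), (∀ X, D X ∈ g.sub X) →
      (∀ X, (g.init q).K X = D X - g.noF (D X)) → Anch 8 τ (fun U => g.pn 8 h β U (D U)) ε →
      Anch 8 τ (g.df 8 h β (g.init q) (g.srcSt (g.z0 q))) (4 * ε +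
        (1 + 289 * (2 * (Real.exp (τ * (1 + 4)) * (9 * (3 * (C * h ^ 2 * 8)))))) * η) := by
    intro D hD hK hA
    refine anch_mono (anch_add (anch_mul hA (by norm_num : (0 : ℝ) ≤ 4)) hcar) (fun X => ?_)
      (by linarith)
    refine add_le_add ?_ (le_of_eq ?_)
    · have a1 : (g.init q).K X - (g.srcSt (g.z0 q)).K X = D X - g.noF (D X) := by
        rw [hK]; exact sub_zero _
      have a2 := pn_dp_le hg.sign h8 hh hβ (sub_mem (hD X) (noF_mem (hD X))) 8 X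
      have a3 := pn_noF_le hg.sign h8 hh hβ (hD X)
      have a4 := B4.p_sub 𝓛 X (D X) (g.noF (D X))
      rw [h2] at a4
      rw [a1]
      linarith
    · congr 2
      simp only [St.car, srcSt, init, Pi.zero_apply, sum_const_zero, zero_add,
        add_sub_cancel_right]
  refine ⟨fun hon => key _ (fun X => sub_mem (W0_mem hg q X) (sum_mem fun k hk => ?_)) fun X => ?_,
    fun hoff => ?_⟩
  · obtain ⟨a1, a2, -⟩ := mem_put_on (hg.src k) (hon k)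
    rw [(mem_filter.1 hk).2] at a1 a2
    exact add_mem (bv_mem a1) (Subalgebra.smul_mem _ (mul_mem (bv_mem a1) (edge_mem _ _ a1 a2)) _)
  · simp only [init, Wsrc, map_sub, map_sum, map_add, map_smul, noF_bv, noF_bE, smul_zero,
      sum_add_distrib, sum_const_zero]
    ring
  · have hz : g.z0 q = 0 := funext fun k => by simp [z0, hoff k]
    rw [← hz]
    refine key _ (W0_mem hg q) fun X => ?_
    simp only [init, hz, Pi.zero_apply, zero_smul, sum_const_zero, sub_zero]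

end Geo

end Vale.Agent.P144Z
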