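import Vale.Agent.P144Z.B4.Main

/-!
# Product expectations over occupation numbers
-/

namespace Vale.Agent.P144Z.R5

open Finset

section Ex

variable {ι : Type} [Fintype ι] [DecidableEq ι] {A : Type} [CommRing A]

/-- The occupation numbers are replaced by the weights `a`. -/
def Ex (a : ι → A) (F : (ι → Bool) → A) : A :=
  ∑ n : ι → Bool, F n * ∏ e, if n e then a e else 1 - a e

/-- `F` only depends on the occupation numbers in `T`. -/
def Dep {B : Type} (T : Finset ι) (F : (ι → Bool) → B) : Prop :=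
  ∀ n n', (∀ e ∈ T, n e = n' e) → F n = F n'

theorem Ex_const (a : ι → A) (c : A) : Ex a (fun _ => c) = c := by
  have h := prod_univ_sum (fun _ : ι => (univ : Finset Bool))
    (fun e b => if b then a e else 1 - a e)
  rw [Fintype.piFinset_univ] at h
  rw [Ex, ← mul_sum, ← h]
  simp

theorem Ex_const_mul (a : ι → A) (c : A) (G : (ι → Bool) → A) :
    Ex a (fun n => c * G n) = c * Ex a G := by
  simp only [Ex, mul_sum, mul_assoc]

theorem Ex_split (a : ι → A) (F : (ι → Bool) → A) (e : ι) :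
    Ex a F = a e * Ex a (fun n => F (Function.update n e true)) +
      (1 - a e) * Ex a (fun n => F (Function.update n e false)) := by
  have h1 : ∀ G : (ι → Bool) → A, Ex a G = ∑ m : {j // j ≠ e} → Bool,
      (G ((Equiv.funSplitAt e Bool).symm (true, m)) * a e +
        G ((Equiv.funSplitAt e Bool).symm (false, m)) * (1 - a e)) *
        ∏ j : {j // j ≠ e}, if m j then a j else 1 - a j := by
    intro G
    rw [Ex, ← (Equiv.funSplitAt e Bool).symm.sum_comp, Fintype.sum_prod_type, sum_comm]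
    refine sum_congr rfl fun m _ => ?_
    have h2 : ∀ b, (∏ e', if (Equiv.funSplitAt e Bool).symm (b, m) e' then a e' else 1 - a e') =
        (if b then a e else 1 - a e) * ∏ j : {j // j ≠ e}, if m j then a j else 1 - a j := by
      intro b
      rw [Fintype.prod_eq_mul_prod_subtype_ne _ e]
      congr 1
      · simp
      · refine prod_congr rfl fun j _ => ?_
        simp [j.2]
    rw [Fintype.sum_bool, h2, h2]
    simp only [if_true, Bool.false_eq_true, if_false]
    ring
  have h3 : ∀ b b' m, Function.update ((Equiv.funSplitAt e Bool).symm (b, m)) e b' =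
      (Equiv.funSplitAt e Bool).symm (b', m) := by
    intro b b' m
    funext j
    by_cases hj : j = e
    · subst hj; simp
    · simp [hj]
  rw [h1, h1, h1, mul_sum, mul_sum, ← sum_add_distrib]
  refine sum_congr rfl fun m _ => ?_
  simp only [h3]
  ring

omit [Fintype ι] in
theorem Dep.update {B : Type} {T : Finset ι} {e : ι} {F : (ι → Bool) → B}
    (h : Dep (insert e T) F) (b : Bool) : Dep T fun n => F (Function.update n e b) := by
  intro n n' hn
  refine h _ _ fun j hj => ?_
  by_cases hje : j = e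
  · subst hje; simp
  · rw [Function.update_of_ne hje, Function.update_of_ne hje]
    exact hn j ((mem_insert.1 hj).resolve_left hje)

omit [Fintype ι] [DecidableEq ι] in
theorem Dep.mono {B : Type} {T T' : Finset ι} {F : (ι → Bool) → B} (h : Dep T F) (hT : T ⊆ T') :
    Dep T' F := fun n n' hn => h n n' fun e he => hn e (hT he)

theorem Ex_mul (a : ι → A) {T T' : Finset ι} (hT : Disjoint T T') {F G : (ι → Bool) → A}
    (hF : Dep T F) (hG : Dep T' G) : Ex a (F * G) = Ex a F * Ex a G := by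
  induction T using Finset.induction_on generalizing F with
  | empty =>
    have h1 : F = fun _ => F fun _ => true := funext fun n => hF _ _ (by simp)
    rw [h1, Ex_const]
    exact Ex_const_mul a _ G
  | insert e T he ih =>
    have h2 : ∀ b, (fun n => (F * G) (Function.update n e b)) =
        (fun n => F (Function.update n e b)) * G := by
      intro b
      funext n
      simp only [Pi.mul_apply]
      congr 1
      refine hG _ _ fun j hj => Function.update_of_ne (fun hje => ?_) _ _
      exact disjoint_left.1 hT (mem_insert_self e T) (hje ▸ hj)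
    have h3 := hT.mono_left (subset_insert e T)
    rw [Ex_split a (F * G) e, Ex_split a F e, h2, h2, ih h3 (hF.update _), ih h3 (hF.update _)]
    ring

end Ex

section Sys

variable {ι : Type} [Fintype ι] [DecidableEq ι] {P : Type}
variable {A : Type} [NormedCommRing A] [NormedAlgebra ℝ A]

theorem Ex_le (L : LocSys P A) (X : Finset P) (a : ι → A) {b c : ℝ} (hb : 0 ≤ b) (T : Finset ι)
    (ha : ∀ e ∈ T, a e ∈ L.sub X ∧ L.p X (a e) ≤ b) {F : (ι → Bool) → A} (hF : Dep T F)
    (hm : ∀ n, F n ∈ L.sub X ∧ L.p X (F n) ≤ c) :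
    Ex a F ∈ L.sub X ∧ L.p X (Ex a F) ≤ (1 + 2 * b) ^ T.card * c := by
  induction T using Finset.induction_on generalizing F with
  | empty =>
    have h1 : F = fun _ => F fun _ => true := funext fun n => hF _ _ (by simp)
    rw [h1, Ex_const]
    simpa using hm _
  | insert e T he ih =>
    have h0 := ha e (mem_insert_self e T)
    have h1 := ih (fun j hj => ha j (mem_insert_of_mem hj)) (hF.update true) fun n => hm _
    have h2 := ih (fun j hj => ha j (mem_insert_of_mem hj)) (hF.update false) fun n => hm _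
    rw [Ex_split a F e]
    refine ⟨add_mem (mul_mem h0.1 h1.1) (mul_mem (sub_mem (one_mem _) h0.1) h2.1), ?_⟩
    have h3 : L.p X (1 - a e) ≤ 1 + b :=
      (B4.p_sub L X _ _).trans (add_le_add (L.p_one X) h0.2)
    refine (L.p_add X _ _).trans ((add_le_add ((L.p_mul X _ _).trans
      (mul_le_mul h0.2 h1.2 (L.p_nonneg _ _) hb)) ((L.p_mul X _ _).trans
      (mul_le_mul h3 h2.2 (L.p_nonneg _ _) (by linarith)))).trans (le_of_eq ?_))
    rw [card_insert_of_notMem he]
    ring

/-- Functions of the occupation numbers with local values. -/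
noncomputable def funSys (L : LocSys P A) (T : Finset P → Finset ι)
    (hT : ∀ {X Y}, X ⊆ Y → T X ⊆ T Y) : LocSys P ((ι → Bool) → A) where
  sub X :=
    { carrier := {F | Dep (T X) F ∧ ∀ n, F n ∈ L.sub X}
      mul_mem' := fun hF hG => ⟨fun n n' h => by
        rw [Pi.mul_apply, Pi.mul_apply, hF.1 n n' h, hG.1 n n' h],
        fun n => mul_mem (hF.2 n) (hG.2 n)⟩
      add_mem' := fun hF hG => ⟨fun n n' h => by
        rw [Pi.add_apply, Pi.add_apply, hF.1 n n' h, hG.1 n n' h],
        fun n => add_mem (hF.2 n) (hG.2 n)⟩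
      algebraMap_mem' := fun r => ⟨fun _ _ _ => rfl, fun _ => (L.sub X).algebraMap_mem r⟩ }
  p X F := ⨆ n, L.p X (F n)
  mono h _ hF := ⟨hF.1.mono (hT h), fun n => L.mono h (hF.2 n)⟩
  p_nonneg X F := Real.iSup_nonneg fun _ => L.p_nonneg _ _
  p_add X F G := ciSup_le fun n => (L.p_add X _ _).trans (add_le_add
    (le_ciSup (Finite.bddAbove_range fun n => L.p X (F n)) n)
    (le_ciSup (Finite.bddAbove_range fun n => L.p X (G n)) n))
  p_smul X c F := by
    rw [Real.mul_iSup_of_nonneg (abs_nonneg c)]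
    exact iSup_congr fun n => L.p_smul X c _
  p_mul X F G := ciSup_le fun n => (L.p_mul X _ _).trans (mul_le_mul
    (le_ciSup (Finite.bddAbove_range fun n => L.p X (F n)) n)
    (le_ciSup (Finite.bddAbove_range fun n => L.p X (G n)) n) (L.p_nonneg _ _)
    (Real.iSup_nonneg fun _ => L.p_nonneg _ _))
  p_one X := ciSup_le fun _ => L.p_one X
  p_mono {X _ F} h hF := ciSup_le fun n => (L.p_mono h (hF.2 n)).trans
    (le_ciSup (Finite.bddAbove_range fun n => L.p X (F n)) n)
  p_def {X F} hF h := funext fun n => L.p_def (hF.2 n) (le_antisymm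
    (h ▸ le_ciSup (Finite.bddAbove_range fun n => L.p X (F n)) n) (L.p_nonneg _ _))

variable {L : LocSys P A} {T : Finset P → Finset ι} {hT : ∀ {X Y}, X ⊆ Y → T X ⊆ T Y}

theorem mem_funSys {X : Finset P} {F : (ι → Bool) → A} :
    F ∈ (funSys L T hT).sub X ↔ Dep (T X) F ∧ ∀ n, F n ∈ L.sub X := Iff.rfl

theorem funSys_le {X : Finset P} {F : (ι → Bool) → A} {c : ℝ} (h : ∀ n, L.p X (F n) ≤ c) :
    (funSys L T hT).p X F ≤ c := ciSup_le h

theorem le_funSys (X : Finset P) (F : (ι → Bool) → A) (n : ι → Bool) :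
    L.p X (F n) ≤ (funSys L T hT).p X F :=
  le_ciSup (Finite.bddAbove_range fun n => L.p X (F n)) n

theorem isExp_Ex [DecidableEq P] (Z : Size P) (a : ι → A) {b : ℝ} (hb : 0 ≤ b)
    (ha : ∀ X, ∀ e ∈ T X, a e ∈ L.sub X ∧ L.p X (a e) ≤ b)
    (hc : ∀ X, ((T X).card : ℝ) ≤ 2 * Z.sz X) (hd : ∀ X Y, ¬ Z.touch X Y → Disjoint (T X) (T Y))
    (E : ((ι → Bool) → A) →ₗ[ℝ] A) (hE : ∀ F, E F = Ex a F) :
    IsExp Z (funSys L T hT) L (2 * Real.log (1 + 2 * b)) E where
  one := by rw [hE]; exact Ex_const a 1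
  mem {X F} hF := by
    rw [hE]
    exact (Ex_le L X a hb (T X) (ha X) hF.1 fun n => ⟨hF.2 n, le_funSys (hT := hT) X F n⟩).1
  le {X F} hF := by
    rw [hE]
    refine (Ex_le L X a hb (T X) (ha X) hF.1
      fun n => ⟨hF.2 n, le_funSys (hT := hT) X F n⟩).2.trans
      (mul_le_mul_of_nonneg_right ?_ ((funSys L T hT).p_nonneg _ _))
    have h1 : 0 ≤ Real.log (1 + 2 * b) := Real.log_nonneg (by linarith)
    rw [← Real.exp_log (by linarith : 0 < 1 + 2 * b), ← Real.exp_nat_mul, Real.log_exp]
    exact Real.exp_le_exp.2 (by nlinarith [hc X])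
  mul {X Y F G} hF hG h := by
    rw [hE, hE, hE]
    exact Ex_mul a (hd X Y h) hF.1 hG.1

end Sys

section Disj

variable {P : Type} [DecidableEq P]
variable {𝒜 𝒜' : Type} [NormedCommRing 𝒜] [NormedAlgebra ℝ 𝒜] [CompleteSpace 𝒜]
  [NormedCommRing 𝒜'] [NormedAlgebra ℝ 𝒜'] [CompleteSpace 𝒜']

theorem exp_sq {x : 𝒜} (h : x * x = 0) : NormedSpace.exp x = 1 + x := by
  have h1 := KP.hasSum_exp x
  have h2 : HasSum (fun n : ℕ => ((n.factorial : ℝ)⁻¹) • x ^ n)
      (∑ n ∈ range 2, ((n.factorial : ℝ)⁻¹) • x ^ n) := by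
    refine hasSum_sum_of_ne_finset_zero fun n hn => ?_
    obtain ⟨k, rfl⟩ : ∃ k, n = k + 2 := ⟨n - 2, by rw [mem_range] at hn; omega⟩
    rw [pow_add, sq, h, mul_zero, smul_zero]
  rw [h1.unique h2]
  simp [sum_range_succ]

/-- Nilpotent terms with supports that do not touch are integrated exactly. -/
theorem Cl_disj (hinj : Function.Injective (NormedSpace.exp : 𝒜' → 𝒜')) {Z : Size P}
    {L : LocSys P 𝒜} {L' : LocSys P 𝒜'} {κ : ℝ} {E : 𝒜 →ₗ[ℝ] 𝒜'} (hE : IsExp Z L L' κ E)
    {K : Type} [Fintype K] (s : K → Finset P) (f : K → 𝒜) (hf : ∀ k, f k ∈ L.sub (s k))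
    (hs : ∀ k k', k ≠ k' → ¬ Z.touch (s k) (s k')) (h1 : ∀ k, f k * f k = 0)
    (h2 : ∀ k, E (f k) * E (f k) = 0) (U : Finset P) :
    Cl E (fun X => ∑ k ∈ univ.filter (fun k => s k = X), f k) U =
      ∑ k ∈ univ.filter (fun k => s k = U), E (f k) := by
  classical
  have h3 : ∀ {B : Type} [AddCommMonoid B] (u : K → B) (Λ : Finset P),
      ∑ X ∈ Λ.powerset, ∑ k ∈ univ.filter (fun k => s k = X), u k =
        ∑ k ∈ univ.filter (fun k => s k ⊆ Λ), u k := by
    intro B _ u Λ
    rw [← sum_fiberwise_of_maps_to (s := univ.filter fun k => s k ⊆ Λ) (t := Λ.powerset) (g := s)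
      (fun k hk => mem_powerset.2 (mem_filter.1 hk).2)]
    refine sum_congr rfl fun X hX => sum_congr ?_ fun _ _ => rfl
    ext k
    simp only [mem_filter, mem_univ, true_and, iff_and_self]
    rintro rfl
    exact mem_powerset.1 hX
  have h4 : ∀ t : Finset K, (∏ k ∈ t, (1 + f k)) ∈ L.sub (t.biUnion s) ∧
      E (∏ k ∈ t, (1 + f k)) = ∏ k ∈ t, (1 + E (f k)) := by
    intro t
    induction t using Finset.induction_on with
    | empty => exact ⟨one_mem _, hE.one⟩
    | insert k t hk ih =>
      have h5 : 1 + f k ∈ L.sub (s k) := add_mem (one_mem _) (hf k)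
      rw [prod_insert hk, prod_insert hk, biUnion_insert]
      refine ⟨mul_mem (L.mono subset_union_left h5) (L.mono subset_union_right ih.1), ?_⟩
      rw [hE.mul h5 ih.1, ih.2, map_add, hE.one]
      rintro ⟨x, hx, y, hy, hxy⟩
      obtain ⟨k', hk', hy'⟩ := mem_biUnion.1 hy
      exact hs k k' (fun h => hk (h ▸ hk')) ⟨x, hx, y, hy', hxy⟩
  refine B4.Cl_unique hinj E _ (fun X => ∑ k ∈ univ.filter (fun k => s k = X), E (f k))
    fun Λ _ => ?_
  rw [h3, h3, KP.exp_sum', KP.exp_sum', prod_congr rfl fun k _ => exp_sq (h1 k),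
    prod_congr rfl fun k _ => exp_sq (h2 k), (h4 _).2]

end Disj

end Vale.Agent.P144Z.R5
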