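import Vale.Agent.P144Z.R8.Last
import Vale.Agent.P144Z.R7.Sums

/-!
The defect size of the initial state.
-/

namespace Vale.Agent.P144Z

open Finset Matrix

namespace R5D

open R8L

variable {g : Geo}

theorem anch_mul {M : ℕ} [NeZero M] {ℓ : ℕ} {τ ε c : ℝ} {f : Finset (Tor M) → ℝ}
    (hA : Anch ℓ τ f ε) (hc : 0 ≤ c) : Anch ℓ τ (fun X => c * f X) (c * ε) := fun z => by
  simp only [mul_assoc, ← mul_sum]
  exact mul_le_mul_of_nonneg_left (hA z) hc

theorem Wsrc_mem (hg : g.Ok) (q : Par) (U : Finset g.P) : g.Wsrc q U ∈ g.sub U := by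
  refine Subalgebra.sum_mem _ fun k hk => ?_
  rw [← (mem_filter.1 hk).2]
  exact add_mem (Geo.bv_mem (R3W.self_mem_put _ (hg.src k).zero)) (R3W.z0_bE_mem hg q k)

theorem init_K (q : Par) (U : Finset g.P) : (g.init q).K U =
    (g.W0 q U - g.Wsrc q U) - g.noF (g.W0 q U - g.Wsrc q U) := by
  simp only [Geo.init, Geo.Wsrc, map_sub, map_sum, map_add, map_smul, Geo.noF_bv, Geo.noF_bE,
    smul_zero, sum_const_zero, add_zero, sum_add_distrib]
  abel

theorem init_df (τ h : ℝ) (hτ : 0 ≤ τ) (hh : 0 < h) : ∃ C : ℝ, 1 ≤ C ∧ ∀ g : Geo, g.Ok →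
    ∀ (q : Par) (η : ℝ), q.Ok → |q.x - tc| ≤ η → |q.Z - 1| ≤ η → ∀ β ε : ℝ, 0 < β →
      ((∀ k, (g.src k).on = true) → Anch 8 τ (fun U => g.pn 8 h β U (g.W0 q U - g.Wsrc q U)) ε →
        Anch 8 τ (g.df 8 h β (g.init q) (g.srcSt (g.z0 q))) (4 * ε + C * η)) ∧
      ((∀ k, (g.src k).on = false) → Anch 8 τ (fun U => g.pn 8 h β U (g.W0 q U)) ε →
        Anch 8 τ (g.df 8 h β (g.init q) (g.srcSt 0)) (4 * ε + C * η)) := by
  classical
  obtain ⟨C, hC, hcr⟩ := Geo.pn_crude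
  refine ⟨1 + 9 * (8 : ℕ) ^ 2 * Real.exp τ * (6 * (C * h ^ 2 * (8 : ℕ))),
    le_add_of_nonneg_right (by positivity), fun g hg q η hq hx hZ β ε hβ => ?_⟩
  have hη : 0 ≤ η := (abs_nonneg _).trans hx
  have h1 : 1 ≤ 8 := by norm_num
  have key : ∀ F : Finset g.P → g.E, (∀ U, F U ∈ g.sub U) →
      (∀ U, (g.init q).K U = F U - g.noF (F U)) → Anch 8 τ (fun U => g.pn 8 h β U (F U)) ε →
      Anch 8 τ (g.df 8 h β (g.init q) (g.srcSt (g.z0 q)))
        (4 * ε + (1 + 9 * (8 : ℕ) ^ 2 * Real.exp τ * (6 * (C * h ^ 2 * (8 : ℕ)))) * η) := by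
    intro F hF hK hA
    have hs : Anch 8 τ (fun X : Finset g.P => ∑ _x ∈ univ.filter (fun x => star x = X),
        6 * (C * h ^ 2 * (8 : ℕ)) * η) _ :=
      R7.anch_star le_rfl hτ (by positivity) fun _ => le_rfl
    refine anch_mono (anch_add (anch_mul hA (by norm_num : (0 : ℝ) ≤ 4)) hs) (fun X => ?_)
      (by nlinarith)
    refine add_le_add ?_ ?_
    · have e : (g.init q).K X - (g.srcSt (g.z0 q)).K X = F X - g.noF (F X) := by
        rw [hK]; exact sub_zero _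
      rw [e]
      have h2 := Geo.pn_dp_le hg.sign h1 hh hβ (sub_mem (hF X) (Geo.noF_mem (hF X))) 8 X
      have h3 := RN.pn_sub (X := X) h1 hh hβ (F X) (g.noF (F X))
      have h4 := Geo.pn_noF_le hg.sign h1 hh hβ (hF X)
      linarith
    · have e : (g.init q).car X - (g.srcSt (g.z0 q)).car X =
          ∑ x ∈ univ.filter (fun x => star x = X), (g.init q).v x := by
        simp [Geo.St.car, Geo.srcSt, Geo.init]
      have hm : ∑ x ∈ univ.filter (fun x => star x = X), (g.init q).v x ∈ g.sub X :=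
        Subalgebra.sum_mem _ fun x hx => (mem_filter.1 hx).2 ▸ (Geo.wf_init hg q).4 x
      rw [e]
      refine (Geo.pn_dp_le hg.sign h1 hh hβ hm 8 X).trans ?_
      refine (mul_le_mul_of_nonneg_left (RN.pn_sum h1 hh hβ _ _) zero_le_two).trans ?_
      rw [mul_sum]
      refine sum_le_sum fun x hx' => ?_
      rw [← (mem_filter.1 hx').2]
      obtain ⟨a1, a2, -⟩ := hcr g hg.sign 8 h β h1 hh hβ x
      have h2 := RN.pn_add (X := star x) h1 hh hβ ((q.Z * (q.x - tc)) • g.O1 x) ((q.Z - 1) • g.O2 x)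
      rw [RN.pn_smul h1 hh hβ, RN.pn_smul h1 hh hβ] at h2
      have h3 : |q.Z * (q.x - tc)| ≤ 2 * η := by
        rw [abs_mul, abs_of_nonneg (by linarith [hq.Z_lo])]
        exact mul_le_mul hq.Z_hi hx (abs_nonneg _) zero_le_two
      have h4 := mul_le_mul h3 a1 (RN.pn_nonneg _) (by positivity)
      have h5 := mul_le_mul hZ a2 (RN.pn_nonneg _) hη
      change 2 * g.pn 8 h β (star x) ((q.Z * (q.x - tc)) • g.O1 x + (q.Z - 1) • g.O2 x) ≤ _
      linarith
  refine ⟨fun _ => key _ (fun U => sub_mem (Geo.W0_mem hg q U) (Wsrc_mem hg q U)) (init_K q),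
    fun hon hA => ?_⟩
  have hz : g.z0 q = 0 := funext fun k => by simp [Geo.z0, hon k]
  rw [← hz]
  exact key _ (Geo.W0_mem hg q) (fun U => by simp [Geo.init, hz]) hA

end R5D

end Vale.Agent.P144Z
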