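import Vale.Agent.P144Z.R5.Abs
import Vale.Agent.P144Z.R5.Geom
import Vale.Agent.P144Z.I2.Quad
import Vale.Agent.P144Z.R1.Main
import Vale.Agent.P144Z.R3.Main
import Vale.Agent.P144Z.R3W.Main

/-!
# The local system of the initial step
-/

namespace Vale.Agent.P144Z.R5

open Finset

section Cl

variable {M : ℕ} [NeZero M]
variable {𝒜 𝒜' : Type} [NormedCommRing 𝒜] [NormedAlgebra ℝ 𝒜] [FiniteDimensional ℝ 𝒜]
  [NormedCommRing 𝒜'] [NormedAlgebra ℝ 𝒜'] [FiniteDimensional ℝ 𝒜']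
variable {L : LocSys (Tor M) 𝒜} {L' : LocSys (Tor M) 𝒜'} {κ τ ε : ℝ} {E : 𝒜 →ₗ[ℝ] 𝒜'}
  {H H' : Finset (Tor M) → 𝒜}

theorem pt_cl (hinj : Function.Injective (NormedSpace.exp : 𝒜' → 𝒜')) (hκ : 0 ≤ κ) (hτ : 0 ≤ τ)
    (hE : IsExp (Z1 M) L L' κ E) (h0 : H ∅ = 0) (hH : ∀ X, H X ∈ L.sub X) (hε : ε ≤ 1 / 16)
    (hle : Pt (τ + κ + 2) (fun X => L.p X (H X)) ε) :
    (∀ U, Cl E H U ∈ L'.sub U) ∧ Pt τ (fun U => L'.p U (Cl E H U)) (4 * ε) ∧
      NormedSpace.exp (∑ U, Cl E H U) = E (NormedSpace.exp (∑ X, H X)) := by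
  obtain ⟨-, h1, h2, h3⟩ := cl_main hinj (Z1 M) L L' hκ hτ hE h0 hH hε
    (hle.le fun _ => L.p_nonneg _ _)
  exact ⟨h1, pt_of_le h2, by simpa using h3 univ⟩

theorem pt_cl_diff (hinj : Function.Injective (NormedSpace.exp : 𝒜' → 𝒜')) (hκ : 0 ≤ κ)
    (hτ : 0 ≤ τ) (hE : IsExp (Z1 M) L L' κ E) (h0 : H ∅ = 0) (h0' : H' ∅ = 0)
    (hH : ∀ X, H X ∈ L.sub X) (hH' : ∀ X, H' X ∈ L.sub X)
    (hle : Pt (τ + κ + 2) (fun X => L.p X (H X)) (1 / 48))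
    (hle' : Pt (τ + κ + 2) (fun X => L.p X (H' X)) (1 / 48))
    (hd : Pt (τ + κ + 2) (fun X => L.p X (H X - H' X)) ε) (hε : 0 ≤ ε) :
    Pt τ (fun U => L'.p U (Cl E H U - Cl E H' U)) (22 * ε) := by
  have h1 := pt_of_le (cl_rem hinj (Z1 M) L L' hκ hτ hE h0 h0' hH hH' le_rfl
    (hle.le fun _ => L.p_nonneg _ _) (hle'.le fun _ => L.p_nonneg _ _)
    (hd.le fun _ => L.p_nonneg _ _))
  rw [add_assoc] at hd
  have h2 := hd.shift (fun _ => L.p_nonneg _ _) (by linarith : κ ≤ κ + 2)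
  refine (h1.add h2).mono (fun U => ?_) (by linarith)
  have h3 : Cl E H U - Cl E H' U =
      ((Cl E H U - E (H U)) - (Cl E H' U - E (H' U))) + E (H U - H' U) := by
    rw [map_sub]; ring
  rw [h3]
  exact (L'.p_add U _ _).trans (add_le_add le_rfl (hE.le (sub_mem (hH U) (hH' U))))

end Cl

variable {g : Geo} {h β : ℝ}

/-- Functions of the contours with local values. -/
noncomputable def fS (𝓛 : LocSys g.P g.E) : LocSys g.P (g.Cfg → g.E) := funSys 𝓛 edg edg_mono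

/-- The growth rate of the initial expectation. -/
noncomputable def kp0 (h : ℝ) : ℝ := 2 * Real.log (1 + 2 * (h ^ 2 * 8))

theorem kp0_nonneg (h : ℝ) : 0 ≤ kp0 h :=
  mul_nonneg zero_le_two (Real.log_nonneg (le_add_of_nonneg_right (by positivity)))

/-- The interaction terms. -/
noncomputable def Hu (g : Geo) (R : ℕ) (V : Finset (ℤ × ℤ) → ℝ) (μ : ℝ) (X : Finset g.P)
    (n : g.Cfg) : g.E :=
  (∑ y : g.P, ∑ B ∈ (potSets R).filter (fun B => g.put y (hull B) = X),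
    μ * V B / B.card * spinFn B (g.see y n)) • (1 : g.E)

/-- The term of one source. -/
noncomputable def hs (g : Geo) (k : g.K) (n : g.Cfg) : g.E :=
  (g.src k).O (g.see (g.src k).y n) • g.bv k

/-- The source terms. -/
noncomputable def Hs (g : Geo) (X : Finset g.P) : g.Cfg → g.E :=
  ∑ k ∈ univ.filter (fun k => g.put (g.src k).y (g.src k).Y = X), hs g k

theorem Hin_eq (q : Par) (X : Finset g.P) : g.Hin q X = Hu g q.R q.V q.μ X + Hs g X := by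
  funext n
  simp only [Geo.Hin, Hu, Hs, hs, Pi.add_apply, Finset.sum_apply]

theorem Hu_sub (R : ℕ) (V : Finset (ℤ × ℤ) → ℝ) (μ μ' : ℝ) (X : Finset g.P) :
    Hu g R V μ X - Hu g R V μ' X = Hu g R V (μ - μ') X := by
  funext n
  simp only [Hu, Pi.sub_apply, ← sub_smul, ← sum_sub_distrib, sub_mul, sub_div]

theorem Hu_empty (R : ℕ) (V : Finset (ℤ × ℤ) → ℝ) (μ : ℝ) : Hu g R V μ ∅ = 0 := by
  funext n
  rw [Hu, sum_eq_zero fun y _ => sum_eq_zero fun B hB => ?_, zero_smul, Pi.zero_apply]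
  obtain ⟨hB, he⟩ := mem_filter.1 hB
  exact absurd (he ▸ self_mem_put y (zero_mem_hull hB)) (notMem_empty _)

theorem Hs_empty (hg : g.Ok) : Hs g ∅ = 0 := sum_eq_zero fun k hk =>
  absurd ((mem_filter.1 hk).2 ▸ self_mem_put (g.src k).y (hg.src k).zero) (notMem_empty _)

theorem Hin_empty (hg : g.Ok) (q : Par) : g.Hin q ∅ = 0 := by
  rw [Hin_eq, Hu_empty, Hs_empty hg, add_zero]

theorem E0_eq (w : ℝ) (F : g.Cfg → g.E) :
    g.E0 w F = Ex (fun e : Tor g.M × Fin 2 => w • g.edge e.1 e.2) F := by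
  simp only [Geo.E0, Ex, LinearMap.coe_mk, AddHom.coe_mk]

variable {𝓛 : LocSys g.P g.E}

theorem mem_fS {X : Finset g.P} {F : g.Cfg → g.E} (h : Dep (edg X) F) (h' : ∀ n, F n ∈ 𝓛.sub X) :
    F ∈ (fS 𝓛).sub X := ⟨h, h'⟩

theorem fS_le {X : Finset g.P} {F : g.Cfg → g.E} {c : ℝ} (h : ∀ n, 𝓛.p X (F n) ≤ c) :
    (fS 𝓛).p X F ≤ c := ciSup_le h

theorem Hu_mem (R : ℕ) (V : Finset (ℤ × ℤ) → ℝ) (μ : ℝ) (X : Finset g.P) :
    Hu g R V μ X ∈ (fS 𝓛).sub X := by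
  refine mem_fS (fun n n' hn => ?_) fun n => Subalgebra.smul_mem _ (one_mem _) _
  unfold Hu
  congr 1
  refine sum_congr rfl fun y _ => sum_congr rfl fun B hB => ?_
  rw [← (mem_filter.1 hB).2] at hn
  rw [spinFn_congr (see_congr hn)]

theorem p_Hu (R : ℕ) (V : Finset (ℤ × ℤ) → ℝ) (μ : ℝ) (X : Finset g.P) :
    (fS 𝓛).p X (Hu g R V μ X) ≤ |μ| * vv g R V X := by
  refine fS_le fun n => ?_
  rw [Hu, 𝓛.p_smul]
  refine (mul_le_of_le_one_right (abs_nonneg _) (𝓛.p_one X)).trans ?_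
  rw [vv, mul_sum]
  refine (abs_sum_le_sum_abs _ _).trans (sum_le_sum fun y _ => ?_)
  rw [mul_sum]
  refine (abs_sum_le_sum_abs _ _).trans (sum_le_sum fun B hB => ?_)
  have h1 : (1 : ℝ) ≤ B.card := by
    exact_mod_cast card_pos.2 ⟨_, (mem_filter.1 (mem_filter.1 hB).1).2⟩
  rw [abs_mul, abs_div, abs_mul, Nat.abs_cast]
  exact (mul_le_of_le_one_right (by positivity) (abs_spinFn _ _)).trans
    (div_le_self (by positivity) h1)

theorem pt_Hu {τ : ℝ} (hτ : 0 ≤ τ) (R : ℕ) (V : Finset (ℤ × ℤ) → ℝ) (μ : ℝ) :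
    Pt τ (fun X => (fS 𝓛).p X (Hu g R V μ X)) (cR τ R * (|μ| * ∑ B ∈ potSets R, |V B|)) :=
  ((pt_vv hτ R V).mul (abs_nonneg μ)).mono (p_Hu R V μ) (le_of_eq (by ring))

variable (hg : g.Ok) (h1 : 𝓛.sub = g.sub)
include hg h1

theorem hs_mem (k : g.K) : hs g k ∈ (fS 𝓛).sub (g.put (g.src k).y (g.src k).Y) := by
  refine mem_fS (fun n n' hn => ?_) fun n => Subalgebra.smul_mem _ ?_ _
  · unfold hs
    rw [(hg.src k).dep _ _ (see_congr hn)]
  · rw [h1]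
    exact Geo.bv_mem (self_mem_put _ (hg.src k).zero)

theorem Hs_mem (X : Finset g.P) : Hs g X ∈ (fS 𝓛).sub X :=
  sum_mem fun k hk => (mem_filter.1 hk).2 ▸ hs_mem hg h1 k

theorem Hin_mem (q : Par) (X : Finset g.P) : g.Hin q X ∈ (fS 𝓛).sub X := by
  rw [Hin_eq]
  exact add_mem (Hu_mem _ _ _ X) (Hs_mem hg h1 X)

variable (h2 : 𝓛.p = g.pn 8 h β) (hh : 0 < h) (hβ : 0 < β)
include h2 hh hβ

omit h1 in
theorem pt_Hs {τ : ℝ} (hτ : 0 ≤ τ) {r : ℕ}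
    (hr : ∀ k, ∀ x ∈ g.put (g.src k).y (g.src k).Y, tdist x (g.src k).y ≤ r)
    (hu : ∀ k k' x, x ∈ g.put (g.src k).y (g.src k).Y → x ∈ g.put (g.src k').y (g.src k').Y →
      k = k') :
    Pt τ (fun X => (fS 𝓛).p X (Hs g X))
      (Real.exp (τ * (1 + (r * (2 * r + 1) ^ 2 : ℕ))) * β) := by
  refine (pt_terms (c := (r * (2 * r + 1) ^ 2 : ℕ)) (N := β) hτ univ
    (fun k => g.put (g.src k).y (g.src k).Y) (fun _ => β) (fun _ _ => hβ.le)
    (fun k _ => by exact_mod_cast stein_le_of_ball (hr k)) fun y => ?_).mono (fun X => ?_) le_rfl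
  · rw [sum_const, nsmul_eq_mul]
    refine mul_le_of_le_one_left hβ.le ?_
    exact_mod_cast card_le_one.2 fun k hk k' hk' =>
      hu k k' y (mem_filter.1 hk).2 (mem_filter.1 hk').2
  · refine (B3.p_sum_le _ _ _ _).trans (sum_le_sum fun k hk => fS_le fun n => ?_)
    rw [hs, 𝓛.p_smul]
    refine (mul_le_of_le_one_left (𝓛.p_nonneg _ _) ((hg.src k).bd _)).trans ?_
    rw [h2]
    exact Geo.pn_bv k hg.sign (by norm_num) hh hβ
      ((mem_filter.1 hk).2 ▸ self_mem_put (g.src k).y (hg.src k).zero)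

theorem isExp_E0 {w : ℝ} (hw : |w| ≤ 1) : IsExp (Z1 g.M) (fS 𝓛) 𝓛 (kp0 h) (g.E0 w) := by
  obtain ⟨C, -, hC⟩ := Geo.pn_crude
  refine isExp_Ex (hT := edg_mono) (Z1 g.M) (fun e => w • g.edge e.1 e.2) (b := h ^ 2 * 8)
    (by positivity) (fun X e he => ?_) card_edg disjoint_edg _ (E0_eq w)
  obtain ⟨h3, h4⟩ := mem_edg.1 he
  refine ⟨Subalgebra.smul_mem _ (h1 ▸ Geo.edge_mem e.1 e.2 h3 h4) _, ?_⟩
  rw [𝓛.p_smul]
  refine (mul_le_of_le_one_left (𝓛.p_nonneg _ _) hw).trans ?_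
  rw [h2]
  exact_mod_cast (hC g hg.sign 8 h β (by norm_num) hh hβ e.1).2.2 e.2 X h3 h4

omit h1 h2 hh hβ in
theorem E0_hs (q : Par) {k : g.K} (hon : (g.src k).on = true) :
    g.E0 (q.x * q.Z) (hs g k) = g.bv k + g.z0 q k • g.bE k := by
  have h3 : ∀ n, hs g k n = g.bv k * (sgn (n ((g.src k).y, (g.src k).dir)) • 1) := by
    intro n
    rw [hs, ((hg.src k).en hon).2, mul_smul_comm, mul_one]
    simp [Geo.see, prj, Prod.mk_zero_zero]
  rw [E0_eq, funext h3, Ex_const_mul, Ex_split _ _ ((g.src k).y, (g.src k).dir)]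
  simp only [Function.update_self, Ex_const, Geo.z0, Geo.bE, hon, sgn, if_true,
    Bool.false_eq_true, if_false, neg_smul, one_smul, ← mul_smul_comm]
  rw [neg_mul, neg_smul, mul_smul (2 : ℝ), two_smul]
  ring

theorem Cl_Hs (q : Par) (hw : |q.x * q.Z| ≤ 1) (hon : ∀ k, (g.src k).on = true)
    (hu : ∀ k k' x, x ∈ g.put (g.src k).y (g.src k).Y → x ∈ g.put (g.src k').y (g.src k').Y →
      k = k') (U : Finset g.P) : Cl (g.E0 (q.x * q.Z)) (Hs g) U = g.Wsrc q U := by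
  rw [Geo.Wsrc, ← sum_congr rfl fun k _ => E0_hs hg q (hon k)]
  refine Cl_disj exp_ev_injective (isExp_E0 hg h1 h2 hh hβ hw) _ (hs g) (hs_mem hg h1) ?_
    (fun k => funext fun n => I2.smul_sq (Geo.bv_sq k) _) (fun k => ?_) U
  · rintro k k' hk ⟨x, hx, y, hy, rfl⟩
    exact hk (hu k k' x hx hy)
  · rw [E0_hs hg q (hon k), Geo.bE, ← mul_smul_comm, ← mul_one_add, mul_mul_mul_comm, Geo.bv_sq,
      zero_mul]

end Vale.Agent.P144Z.R5
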